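import Mathlib.Analysis.Calculus.InverseFunctionTheorem.ContDiff
import Mathlib.Analysis.Calculus.InverseFunctionTheorem.Analytic
import Mathlib.Analysis.Analytic.Uniqueness
import Mathlib.Analysis.Complex.Basic
import Mathlib.Analysis.Normed.Module.Convex
import Mathlib.Analysis.Normed.Module.FiniteDimension
import Mathlib.LinearAlgebra.Dual.Lemmas
import Mathlib.Topology.Algebra.Module.FiniteDimension

/-!
# P299G85: the zero set of analytic functions near a point where the rank is as expected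
-/

open Set Filter Topology Function Module

noncomputable section

namespace Vale.Agent.P299G85

variable {E F : Type} [NormedAddCommGroup E] [NormedSpace ℂ E] [FiniteDimensional ℂ E]
  [NormedAddCommGroup F] [NormedSpace ℂ F] [FiniteDimensional ℂ F]

/-- an injective linear map between spaces of the same dimension -/
theorem ex_equiv (D : E →L[ℂ] F) (h : Injective D ∨ Surjective D) (e : finrank ℂ E = finrank ℂ F) :
    ∃ D' : E ≃L[ℂ] F, (D' : E →L[ℂ] F) = D := by
  have h1 : Injective (D : E →ₗ[ℂ] F) :=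
    h.elim id (LinearMap.injective_iff_surjective_of_finrank_eq_finrank e).2
  exact ⟨(LinearEquiv.ofBijective (D : E →ₗ[ℂ] F) ⟨h1,
    (LinearMap.injective_iff_surjective_of_finrank_eq_finrank e).1 h1⟩).toContinuousLinearEquiv,
    ContinuousLinearMap.ext fun _ => rfl⟩

/-- independent equations and complementary coordinates -/
theorem ex_lin {σ : Type} (D : σ → E →L[ℂ] ℂ) (K : Submodule ℂ E)
    (hK : ∀ v, v ∈ K ↔ ∀ s, D s v = 0) (hn : finrank ℂ K = finrank ℂ F) :
    ∃ (κ : Type) (_ : Fintype κ) (j : κ → σ) (L : E →L[ℂ] F),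
      finrank ℂ E = finrank ℂ ((κ → ℂ) × F) ∧ ∀ v, (∀ k, D (j k) v = 0) → L v = 0 → v = 0 := by
  obtain ⟨κ, j, -, h2, h3⟩ := exists_linearIndependent' ℂ (fun s => (D s : Dual ℂ E))
  have := h3.finite
  let _ := Fintype.ofFinite κ
  have h4 : ∀ v, (∀ k, D (j k) v = 0) → v ∈ K := fun v hv => (hK v).2 fun s => by
    have h5 : (D s : Dual ℂ E) ∈ Submodule.span ℂ (range ((fun s => (D s : Dual ℂ E)) ∘ j)) :=
      h2 ▸ Submodule.subset_span (mem_range_self s)
    refine Submodule.span_induction (p := fun (w : Dual ℂ E) _ => w v = 0) ?_ rfl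
      (fun x y _ _ a b => by simp [a, b]) (fun a x _ b => by simp [b]) h5
    rintro _ ⟨k, rfl⟩
    exact hv k
  have h6 : (Submodule.span ℂ (range ((fun s => (D s : Dual ℂ E)) ∘ j))).dualCoannihilator = K := by
    ext v
    rw [Submodule.mem_dualCoannihilator]
    refine ⟨fun h => h4 v fun k => h _ (Submodule.subset_span (mem_range_self k)), fun h w hw => ?_⟩
    refine Submodule.span_induction (p := fun (w : Dual ℂ E) _ => w v = 0) ?_ rfl
      (fun x y _ _ a b => by simp [a, b]) (fun a x _ b => by simp [b]) hw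
    rintro _ ⟨k, rfl⟩
    exact (hK v).1 h _
  have h7 := Subspace.finrank_add_finrank_dualCoannihilator_eq
    (Submodule.span ℂ (range ((fun s => (D s : Dual ℂ E)) ∘ j)))
  rw [h6, finrank_span_eq_card h3] at h7
  obtain ⟨p, hp⟩ := K.subtype.exists_leftInverse_of_injective K.ker_subtype
  let q := LinearEquiv.ofFinrankEq K F hn
  refine ⟨κ, inferInstance, j, LinearMap.toContinuousLinearMap (q.toLinearMap ∘ₗ p), ?_,
    fun v h1 h2 => ?_⟩
  · rw [finrank_prod, finrank_fintype_fun_eq_card, ← h7, hn]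
  · have h8 : p v = ⟨v, h4 v h1⟩ := LinearMap.congr_fun hp ⟨v, h4 v h1⟩
    have h9 : q (p v) = 0 := h2
    rw [q.map_eq_zero_iff, h8] at h9
    exact congrArg Subtype.val h9

/-- a differentiable right inverse of an analytic map is onto a neighbourhood -/
theorem ev_right {g τ : F → F} {s : F} (hg : AnalyticAt ℂ g (τ s)) (hτ : DifferentiableAt ℂ τ s)
    (h : ∀ᶠ y in 𝓝 s, g (τ y) = y) : Tendsto g (𝓝 (τ s)) (𝓝 s) ∧ ∀ᶠ t in 𝓝 (τ s), τ (g t) = t := by
  have : CompleteSpace F := FiniteDimensional.complete ℂ F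
  have h1 := (hg.differentiableAt.hasFDerivAt.comp s hτ.hasFDerivAt).unique
    ((hasFDerivAt_id s).congr_of_eventuallyEq h)
  obtain ⟨D, hD⟩ := ex_equiv (fderiv ℂ g (τ s))
    (Or.inr fun v => ⟨fderiv ℂ τ s v, DFunLike.congr_fun h1 v⟩) rfl
  have h2 : HasStrictFDerivAt g (D : F →L[ℂ] F) (τ s) := hD ▸ hg.hasStrictFDerivAt
  have h3 : Tendsto g (𝓝 (τ s)) (𝓝 s) := by
    have := hg.continuousAt.tendsto
    rwa [h.self_of_nhds] at this
  have h4 := h2.toOpenPartialHomeomorph g |>.open_source.mem_nhds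
    h2.mem_toOpenPartialHomeomorph_source
  refine ⟨h3, ?_⟩
  filter_upwards [h4, (hτ.continuousAt.tendsto.comp h3).eventually h4, h3.eventually h]
    with t k1 k2 k3
  exact (h2.toOpenPartialHomeomorph g).injOn k2 k1 k3

/-- `φ : B → A ∩ V` is an analytic parametrization with the linear inverse `L` -/
structure Par (A V : Set E) (B : Set F) (L : E →L[ℂ] F) (φ : F → E) : Prop where
  oV : IsOpen V
  oB : IsOpen B
  an : ∀ t ∈ B, AnalyticAt ℂ φ t
  mA : ∀ t ∈ B, φ t ∈ A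
  mV : ∀ t ∈ B, φ t ∈ V
  ri : ∀ t ∈ B, L (φ t) = t
  mB : ∀ v ∈ V, L v ∈ B
  li : ∀ v ∈ A, v ∈ V → φ (L v) = v

theorem ex_par {σ : Type} (f : σ → E → ℂ) (hf : ∀ s v, AnalyticAt ℂ (f s) v) {A : Set E}
    (hA : ∀ v, v ∈ A ↔ ∀ s, f s v = 0) (a : E) (ha : a ∈ A) (K : Submodule ℂ E)
    (hK : ∀ v, v ∈ K ↔ ∀ s, fderiv ℂ (f s) a v = 0) (hn : finrank ℂ K = finrank ℂ F)
    (hc : ∀ U ∈ 𝓝 a, ∃ (Φ : F → E) (Ψ : E → F), Φ 0 ∈ U ∧ DifferentiableAt ℂ Φ 0 ∧
      AnalyticAt ℂ Ψ (Φ 0) ∧ ∀ᶠ s in 𝓝 0, Φ s ∈ A ∧ Ψ (Φ s) = s) :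
    ∃ (V : Set E) (B : Set F) (L : E →L[ℂ] F) (φ : F → E), a ∈ V ∧ Par A V B L φ := by
  have : CompleteSpace E := FiniteDimensional.complete ℂ E
  have : CompleteSpace F := FiniteDimensional.complete ℂ F
  obtain ⟨κ, _, j, L, h1, h2⟩ := ex_lin (F := F) (fun s => fderiv ℂ (f s) a) K hK hn
  let Θ : E → (κ → ℂ) × F := fun v => (fun k => f (j k) v, L v)
  have a1 : AnalyticAt ℂ Θ a := (analyticAt_pi_iff.2 fun k => hf _ _).prod (L.analyticAt a)
  have a2 : HasFDerivAt Θ ((ContinuousLinearMap.pi fun k => fderiv ℂ (f (j k)) a).prod L) a :=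
    (hasFDerivAt_pi.2 fun k => (hf _ _).differentiableAt.hasFDerivAt).prodMk L.hasFDerivAt
  obtain ⟨D, hD⟩ := ex_equiv ((ContinuousLinearMap.pi fun k => fderiv ℂ (f (j k)) a).prod L)
    (Or.inl ((injective_iff_map_eq_zero _).2 fun v hv =>
      h2 v (fun k => congrFun (congrArg Prod.fst hv) k) (congrArg Prod.snd hv))) h1
  rw [← hD] at a2
  have a3 : ContDiffAt ℂ ⊤ Θ a := a1.contDiffAt
  let T := a3.toOpenPartialHomeomorph Θ a2 (by simp)
  have t1 : a ∈ T.source := a3.mem_toOpenPartialHomeomorph_source a2 (by simp)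
  have t2 : ∀ v, T v = Θ v := fun _ => rfl
  have t3 : ∀ v ∈ A, T v = (0, L v) := fun v hv =>
    Prod.ext (funext fun k => (hA v).1 hv _) rfl
  have t4 : AnalyticAt ℂ T.symm (0, L a) := by
    rw [← t3 a ha]
    exact (a3.to_localInverse a2 (by simp)).analyticAt
  have t5 : (0, L a) ∈ T.target := t3 a ha ▸ T.map_source t1
  have c1 : ContinuousAt (fun t : F => ((0 : κ → ℂ), t)) (L a) := by fun_prop
  obtain ⟨r, hr, hB⟩ := Metric.eventually_nhds_iff_ball.1
    ((c1.eventually t4.eventually_analyticAt).and (c1.eventually (T.open_target.mem_nhds t5)))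
  let φ : F → E := fun t => T.symm (0, t)
  have p1 : ∀ t ∈ Metric.ball (L a) r, AnalyticAt ℂ φ t := fun t ht =>
    (hB t ht).1.fun_comp (f := fun t : F => ((0 : κ → ℂ), t)) (analyticAt_const.prod analyticAt_id)
  have p2 : ∀ t ∈ Metric.ball (L a) r, L (φ t) = t := fun t ht =>
    congrArg Prod.snd (T.right_inv (hB t ht).2)
  have p3 : ∀ v ∈ A, v ∈ T.source → φ (L v) = v := fun v hv hs => by
    simp only [φ, ← t3 v hv, T.left_inv hs]
  have oV : IsOpen (T.source ∩ L ⁻¹' Metric.ball (L a) r) :=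
    T.open_source.inter (Metric.isOpen_ball.preimage L.continuous)
  have aV : a ∈ T.source ∩ L ⁻¹' Metric.ball (L a) r := ⟨t1, Metric.mem_ball_self hr⟩
  refine ⟨_, Metric.ball (L a) r, L, φ, aV, oV, Metric.isOpen_ball, p1, fun t ht => ?_,
    fun t ht => ⟨T.map_target (hB t ht).2, by rwa [mem_preimage, p2 t ht]⟩, p2, fun v hv => hv.2,
    fun v hv hs => p3 v hv hs.1⟩
  obtain ⟨Φ, Ψ, k1, k2, k3, k4⟩ := hc _ (oV.mem_nhds aV)
  have k5 : ∀ᶠ s in 𝓝 0, φ (L (Φ s)) = Φ s := by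
    filter_upwards [k4, k2.continuousAt.eventually (oV.mem_nhds k1)] with s m1 m2
    exact p3 _ m1.1 m2.1
  obtain ⟨k6, k7⟩ := ev_right (g := fun t => Ψ (φ t)) (τ := fun s => L (Φ s)) (s := 0)
    (AnalyticAt.fun_comp (by rwa [k5.self_of_nhds]) (p1 _ k1.2)) (L.differentiableAt.comp 0 k2)
    (by filter_upwards [k4, k5] with s m1 m2; rw [m2, m1.2])
  refine (hA _).2 fun s => ?_
  refine AnalyticOnNhd.eqOn_zero_of_preconnected_of_eventuallyEq_zero (f := fun t => f s (φ t))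
    (fun t ht => (hf s _).fun_comp (p1 t ht)) (convex_ball _ _).isPreconnected k1.2 ?_ ht
  filter_upwards [k7, k6.eventually k4, k6.eventually k5] with t m1 m2 m3
  rw [m1] at m3
  rw [m3]
  exact (hA _).1 m2.1 s

end Vale.Agent.P299G85

end
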